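import Vale.Agent.P146.H444.Spec
import Vale.Agent.P146.H437.Grid

/-!
# P146, lower half: the quantifiers of the upper inner rows (helper444)

`RowUBox`, `RowFBox`: the rows of helper437 (`RowU`, `RowF`) under the box at the scale `u`.
`UpE`: upper energies of the laws with three levels.  `inUBox_of`: `InUBox`.
-/

open Set

namespace Vale.Agent.P146.H444

open Vale.Agent.P146.H560 Vale.Agent.P146.H758 Vale.Agent.P146.U Vale.Agent.P146.H865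
open Vale.Agent.P146.H437

/-- The upper rows at the shares `T ∈ [τ, S]` under the box. -/
def RowUBox (β : ℝ) : Prop :=
  ∃ C : ℝ, 1 ≤ C ∧ ∀ κ : ℝ, 0 < κ → κ ≤ 1 / 200 → ∃ S0 : ℝ, ∀ S : ℝ, S0 ≤ S →
    ∃ τ0 : ℝ, 0 < τ0 ∧ ∀ τ : ℝ, 0 < τ → τ ≤ τ0 → ∀ C1 d2 : ℝ, 0 ≤ C1 → 0 < d2 →
      ∃ r0 : ℝ, 0 < r0 ∧ ∀ r : ℝ, 0 < r → r ≤ r0 → r ≤ κ → ∀ d1 : ℝ, 0 < d1 →
        ∃ γ : ℝ, 0 < γ ∧ ∃ n0 : ℕ, ∀ n : ℕ, n0 ≤ n → ∀ u B : ℝ, 0 < u →
          u ≤ (n : ℝ) ^ (-(11 / 100) : ℝ) → 0 ≤ B → (B + 1) ^ 8 ≤ γ * (n * u ^ 6) →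
            Bx n β B u → ∀ W : Set ℝ, W ⊆ Icc 0 1 →
              (∀ w ∈ W, -C1 ≤ psiU n β κ τ u S (1 + κ) w) →
                RowU n β κ u S τ (τ / 2) r (C * (B + 1)) C d1 d2 W

/-- The upper row at the share `τ` (the field moved from the level `2` to the level `3`) under
the box. -/
def RowFBox (β : ℝ) : Prop :=
  ∃ C : ℝ, 1 ≤ C ∧ ∀ κ : ℝ, 0 < κ → κ ≤ 1 / 200 → ∃ S0 : ℝ, ∀ S : ℝ, S0 ≤ S →
    ∃ τ0 : ℝ, 0 < τ0 ∧ ∀ τ : ℝ, 0 < τ → τ ≤ τ0 → ∀ C1 d2 : ℝ, 0 ≤ C1 → 0 < d2 →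
      ∃ r0 : ℝ, 0 < r0 ∧ ∀ r : ℝ, 0 < r → r ≤ r0 → r ≤ κ → ∀ d1 : ℝ, 0 < d1 →
        ∃ γ : ℝ, 0 < γ ∧ ∃ n0 : ℕ, ∀ n : ℕ, n0 ≤ n → ∀ u B : ℝ, 0 < u →
          u ≤ (n : ℝ) ^ (-(11 / 100) : ℝ) → 0 ≤ B → (B + 1) ^ 8 ≤ γ * (n * u ^ 6) →
            Bx n β B u → ∀ W : Set ℝ, W ⊆ Icc 0 1 →
              (∀ w ∈ W, -C1 ≤ psiU n β κ τ u S (1 + κ) w) →
                RowF n β κ u S τ (τ / 2) r (C * (B + 1)) C d1 d2 W

/-- Upper energies of the laws with three levels, exponents up to `2 + κ`. -/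
def UpE (β : ℝ) : Prop :=
  ∃ E0 : ℝ, 0 ≤ E0 ∧ ∀ S : ℝ, ∃ n0 : ℕ, ∀ n : ℕ, n0 ≤ n → ∀ κ τ u w : ℝ, 0 < κ → κ ≤ 1 / 200 →
    0 < τ → τ ≤ S → (n : ℝ) ^ (-(1 / 6) : ℝ) ≤ u → u ≤ (n : ℝ) ^ (-(11 / 100) : ℝ) →
      w ∈ Icc (0 : ℝ) 1 → psiU n β (1 + κ) τ u S (1 + (1 + κ)) w ≤ E0

variable {n N : ℕ} {β κ u S τ T1 r C0 C0' C C' d1 d2 d w : ℝ} {W : Set ℝ}

lemma RowU.mono (hr : 0 ≤ r) (hC0 : C0 ≤ C0') (hC : C ≤ C')
    (h : RowU n β κ u S τ T1 r C0 C d1 d2 W) : RowU n β κ u S τ T1 r C0' C' d1 d2 W := by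
  intro w hw T hT
  obtain ⟨θ, α, h1, h2, h3, h4⟩ := h w hw T hT
  refine ⟨θ, α, by linarith, h2, h3, h4.trans ?_⟩
  refine mul_le_mul_of_nonneg_left ?_ (by positivity)
  have : (1 + C * max α 0) * (max (α - T) 0) ^ 2 ≤ (1 + C' * max α 0) * (max (α - T) 0) ^ 2 := by
    refine mul_le_mul_of_nonneg_right ?_ (sq_nonneg _)
    have := mul_le_mul_of_nonneg_right hC (le_max_right α 0)
    linarith
  linarith

lemma RowF.mono (hr : 0 ≤ r) (hW : W ⊆ Icc 0 1) (hC0 : C0 ≤ C0') (hC : C ≤ C')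
    (h : RowF n β κ u S τ T1 r C0 C d1 d2 W) : RowF n β κ u S τ T1 r C0' C' d1 d2 W := by
  intro w hw
  obtain ⟨θ, α, h1, h2, h3, h4⟩ := h w hw
  refine ⟨θ, α, by linarith, h2, h3, h4.trans ?_⟩
  refine mul_le_mul_of_nonneg_left ?_ hr
  have hw0 := (hW hw).1
  have : C * w * (max α 0 + √w) ≤ C' * w * (max α 0 + √w) := by
    refine mul_le_mul_of_nonneg_right (mul_le_mul_of_nonneg_right hC hw0) ?_
    have := le_max_right α 0
    have := Real.sqrt_nonneg w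
    linarith
  linarith

/-- the scales `u ≤ n ^ (-11/100)` are small -/
lemma small_u (c : ℝ) : ∃ n0 : ℕ, 1 ≤ n0 ∧ ∀ n : ℕ, n0 ≤ n → ∀ u : ℝ,
    u ≤ (n : ℝ) ^ (-(11 / 100) : ℝ) → 0 < u → c * u ≤ 1 ∧ c * u ^ 2 ≤ 1 := by
  have h0 : Filter.Tendsto (fun n : ℕ => (n : ℝ) ^ (-(11 / 100) : ℝ)) Filter.atTop (nhds 0) :=
    (tendsto_rpow_neg_atTop (by norm_num)).comp tendsto_natCast_atTop_atTop
  have h1 := h0.eventually (eventually_le_nhds (show (0 : ℝ) < 1 / (|c| + 1) by positivity))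
  obtain ⟨n0, h2⟩ := Filter.eventually_atTop.1 h1
  refine ⟨max 1 n0, le_max_left _ _, fun n hn u hu hu0 => ?_⟩
  have h3 := hu.trans (h2 n ((le_max_right _ _).trans hn))
  have hc := le_abs_self c
  have hc0 := abs_nonneg c
  have h4 : (|c| + 1) * u ≤ 1 := by
    rw [le_div_iff₀ (by positivity)] at h3
    linarith
  have h5 : u ≤ 1 := by nlinarith
  have h6 : c * u ≤ 1 := by nlinarith
  refine ⟨h6, ?_⟩
  have h7 : |c| * u ^ 2 ≤ |c| * u := by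
    have := mul_le_mul_of_nonneg_left h5 hu0.le
    nlinarith
  nlinarith [sq_nonneg u]

/-- the scale condition from the condition on `B` -/
lemma u_ge {γ B : ℝ} (hn : 0 < n) (hu : 0 < u) (hγ : γ ≤ 1) (hB : 0 ≤ B)
    (h : (B + 1) ^ 8 ≤ γ * (n * u ^ 6)) : (n : ℝ) ^ (-(1 / 6) : ℝ) ≤ u := by
  have hn' : (0 : ℝ) < n := Nat.cast_pos.2 hn
  have h1 : (1 : ℝ) ≤ (B + 1) ^ 8 := one_le_pow₀ (by linarith)
  have h2 : (0 : ℝ) ≤ n * u ^ 6 := by positivity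
  have h3 : (1 : ℝ) ≤ n * u ^ 6 := by nlinarith
  have h4 : ((n : ℝ) ^ (-(1 / 6) : ℝ)) ^ 6 = (n : ℝ)⁻¹ := by
    rw [← Real.rpow_natCast, ← Real.rpow_mul hn'.le]
    norm_num
    exact Real.rpow_neg_one _
  have h5 : ((n : ℝ) ^ (-(1 / 6) : ℝ)) ^ 6 ≤ u ^ 6 := by
    rw [h4, inv_le_iff_one_le_mul₀ hn']
    linarith
  exact le_of_pow_le_pow_left₀ (by norm_num) hu.le h5

/-- **Upper inner rows.** -/
theorem inUBox_of (hβ : 0 < β) (hU : RowUBox β) (hF : RowFBox β) (hE : UpE β) : InUBox β := by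
  obtain ⟨CU, hCU, hU⟩ := hU
  obtain ⟨CF, hCF, hF⟩ := hF
  obtain ⟨E0, hE0, hE⟩ := hE
  refine ⟨max CU CF, hCU.trans (le_max_left _ _), fun κ hκ hκ1 => ?_⟩
  obtain ⟨S1, hU⟩ := hU κ hκ hκ1
  obtain ⟨S2, hF⟩ := hF κ hκ hκ1
  refine ⟨max 1 (max S1 S2), fun S hSS => ?_⟩
  have hS1 : 1 ≤ S := (le_max_left _ _).trans hSS
  have hSS' := (le_max_right _ _).trans hSS
  obtain ⟨t1, ht1, hU⟩ := hU S ((le_max_left _ _).trans hSS')
  obtain ⟨t2, ht2, hF⟩ := hF S ((le_max_right _ _).trans hSS')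
  refine ⟨min 1 (min t1 t2), by positivity, fun τ hτ hττ C1 d hC1 hd => ?_⟩
  have hτ1 : τ ≤ 1 := hττ.trans (min_le_left _ _)
  have hτ' := hττ.trans (min_le_right _ _)
  have hτS : τ ≤ S := hτ1.trans hS1
  obtain ⟨d2, hd2⟩ : ∃ d2, d2 = d / (2 * (S / 4 + 1)) := ⟨_, rfl⟩
  have hS4 : 0 < S / 4 + 1 := by positivity
  have hd20 : 0 < d2 := by rw [hd2]; positivity
  obtain ⟨r1, hr1, hU⟩ := hU τ hτ (hτ'.trans (min_le_left _ _)) C1 d2 hC1 hd20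
  obtain ⟨r2, hr2, hF⟩ := hF τ hτ (hτ'.trans (min_le_right _ _)) C1 d2 hC1 hd20
  have hEC : 0 ≤ E0 + C1 := by linarith
  obtain ⟨r, hr⟩ : ∃ r, r = min (min r1 r2) (min κ (d / (2 * (E0 + C1 + 1)))) := ⟨_, rfl⟩
  have hr0 : 0 < r := by rw [hr]; positivity
  have hra : r ≤ r1 := by rw [hr]; exact (min_le_left _ _).trans (min_le_left _ _)
  have hrb : r ≤ r2 := by rw [hr]; exact (min_le_left _ _).trans (min_le_right _ _)
  have hrκ : r ≤ κ := by rw [hr]; exact (min_le_right _ _).trans (min_le_left _ _)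
  have hrE : r ≤ d / (2 * (E0 + C1 + 1)) := by
    rw [hr]; exact (min_le_right _ _).trans (min_le_right _ _)
  have hEr : (E0 + C1) * r ≤ d / 2 := by
    rw [le_div_iff₀ (by positivity)] at hrE
    nlinarith
  obtain ⟨N, hN, hNS⟩ : ∃ N : ℕ, 0 < N ∧ S - τ ≤ N * τ := by
    obtain ⟨N, hN⟩ := exists_nat_ge ((S - τ) / τ)
    refine ⟨N + 1, by omega, ?_⟩
    rw [div_le_iff₀ hτ] at hN
    push_cast
    nlinarith
  have hN' : (0 : ℝ) < N := Nat.cast_pos.2 hN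
  obtain ⟨d1, hd1⟩ : ∃ d1, d1 = min (d / 2) (d * r / (2 * (N + 1))) := ⟨_, rfl⟩
  have hd10 : 0 < d1 := by rw [hd1]; positivity
  have hd1a : d1 ≤ d / 2 := by rw [hd1]; exact min_le_left _ _
  have hd1b : (N + 1) * d1 / r ≤ d / 2 := by
    have : d1 ≤ d * r / (2 * (N + 1)) := by rw [hd1]; exact min_le_right _ _
    rw [le_div_iff₀ (by positivity)] at this
    rw [div_le_iff₀ hr0]
    linarith
  have hd2b : (S / 4 + 1) * d2 = d / 2 := by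
    rw [hd2]
    field_simp
  obtain ⟨g1, hg1, n1, hU⟩ := hU r hr0 hra hrκ d1 hd10
  obtain ⟨g2, hg2, n2, hF⟩ := hF r hr0 hrb hrκ d1 hd10
  obtain ⟨n3, hE⟩ := hE S
  obtain ⟨n4, hn41, hn4⟩ := small_u 3
  refine ⟨min 1 (min g1 g2), by positivity, max (max n1 n2) (max n3 n4),
    fun n hn u B hu hu1 hB hBu hbx W hW hWC => ?_⟩
  have hn' := (le_max_left _ _).trans hn
  have hn'' := (le_max_right _ _).trans hn
  have hnpos : 0 < n := lt_of_lt_of_le (by omega) ((le_max_right _ _).trans hn'')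
  have hnR : (0 : ℝ) < n := Nat.cast_pos.2 hnpos
  have hnu : (0 : ℝ) ≤ n * u ^ 6 := by positivity
  have h3u := (hn4 n ((le_max_right _ _).trans hn'') u hu1 hu).1
  have hue := u_ge hnpos hu (min_le_left _ _) hB hBu
  have hmin := min_le_right (1 : ℝ) (min g1 g2)
  have hBU : (B + 1) ^ 8 ≤ g1 * (n * u ^ 6) :=
    hBu.trans (mul_le_mul_of_nonneg_right (hmin.trans (min_le_left _ _)) hnu)
  have hBF : (B + 1) ^ 8 ≤ g2 * (n * u ^ 6) :=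
    hBu.trans (mul_le_mul_of_nonneg_right (hmin.trans (min_le_right _ _)) hnu)
  have hRU := RowU.mono hr0.le
    (mul_le_mul_of_nonneg_right (le_max_left CU CF) (by linarith : (0 : ℝ) ≤ B + 1))
    (le_max_left CU CF)
    (hU n ((le_max_left _ _).trans hn') u B hu hu1 hB hBU hbx W hW hWC)
  have hRF := RowF.mono hr0.le hW
    (mul_le_mul_of_nonneg_right (le_max_right CU CF) (by linarith : (0 : ℝ) ≤ B + 1))
    (le_max_right CU CF)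
    (hF n ((le_max_right _ _).trans hn') u B hu hu1 hB hBF hbx W hW hWC)
  have hAE : ApE n β κ τ u S (E0 + C1) W := by
    intro w hw
    have h1 := hE n ((le_max_left _ _).trans hn'') κ τ u w hκ hκ1 hτ hτS hue hu1 (hW hw)
    have h2 := hWC w hw
    linarith
  have hC0 : 0 ≤ max CU CF := by
    have := le_max_left CU CF
    linarith
  have h := inU_grid (E := E0 + C1) hnpos hβ hu hκ (by nlinarith) (by linarith : 0 ≤ τ / 2)
    (by linarith) hτ hτS hr0 hrκ hC0 hd20.le hN hNS hW hAE hRU hRF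
  intro w hw
  obtain ⟨α, K, h1, h2, h3, h4⟩ := h w hw
  refine ⟨α, K, h1, fun w' hw' => ?_, ?_, ?_⟩
  · have := h2 w' hw'
    linarith
  · linarith
  · rw [hd2b] at h4
    linarith

end Vale.Agent.P146.H444
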