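import Vale.Agent.P146.H865.Rows
import Vale.Agent.P146.H758.Sand

/-!
# P146, lower half: frozen interface of the composition (helper444)

`Bx`: the a priori box at the scale `u`.  `InUBox`, `InLBox`, `CrsBox`: the three row theorems
(box in, the fields of `H865.Dat` out).  `StarOut`: the box at every scale from the growth
hypothesis.
-/

open Set

namespace Vale.Agent.P146.H444

open Vale.Agent.P146.H560 Vale.Agent.P146.H758 Vale.Agent.P146.U Vale.Agent.P146.H865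

/-- **The a priori box at the scale `u`**: pure laws with field, both sides. -/
def Bx (n : ℕ) (β B u : ℝ) : Prop :=
  ∀ v V : ℝ, u / 2 ≤ v → v ≤ 4 * u → 0 ≤ V → V ≤ 8 * u ^ 3 →
    |Pu n β v V - P1 n β v - n / (2 * β) * V| ≤ B * (n * u ^ 5)

/-- `InU` on a set `W` of field values. -/
def InUW (β C B κ S d : ℝ) (ψ : ℝ → ℝ → ℝ → ℝ) (W : Set ℝ) : Prop :=
  ∀ w ∈ W, ∃ α K : ℝ, -B ≤ α ∧
    (∀ w' ∈ W, ψ S (1 + κ) w' ≤ ψ S (1 + κ) w + α / (4 * β) * (w' - w) + d) ∧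
    ψ S (1 + κ) w - K * κ - d ≤ ψ S 1 w ∧
    K ≤ (1 + C * max α 0) * (max α 0) ^ 3 / 12 + C * w * max α 0 + C * w * √w + d

/-- **Upper inner rows** at all the points of a set `W` of field values at which the law itself
satisfies the local lower bound `-C1`. -/
def InUBox (β : ℝ) : Prop :=
  ∃ C : ℝ, 1 ≤ C ∧ ∀ κ : ℝ, 0 < κ → κ ≤ 1 / 200 → ∃ S0 : ℝ, ∀ S : ℝ, S0 ≤ S →
    ∃ τ0 : ℝ, 0 < τ0 ∧ ∀ τ : ℝ, 0 < τ → τ ≤ τ0 → ∀ C1 d : ℝ, 0 ≤ C1 → 0 < d →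
      ∃ γ : ℝ, 0 < γ ∧ ∃ n0 : ℕ, ∀ n : ℕ, n0 ≤ n → ∀ u B : ℝ, 0 < u →
        u ≤ (n : ℝ) ^ (-(11 / 100) : ℝ) → 0 ≤ B → (B + 1) ^ 8 ≤ γ * (n * u ^ 6) → Bx n β B u →
        ∀ W : Set ℝ, W ⊆ Icc 0 1 → (∀ w ∈ W, -C1 ≤ psiU n β κ τ u S (1 + κ) w) →
          InUW β C (C * (B + 1)) κ S d (psiU n β κ τ u) W

/-- **Lower inner row** at the exponent `1`, field `0`. -/
def InLBox (β : ℝ) : Prop :=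
  ∀ κ : ℝ, 0 < κ → κ ≤ 1 / 200 → ∀ ε : ℝ, 0 < ε → ∃ S0 : ℝ, ∀ S : ℝ, S0 ≤ S →
    ∃ τ0 : ℝ, 0 < τ0 ∧ ∀ τ : ℝ, 0 < τ → τ ≤ τ0 → ∀ B d : ℝ, 0 ≤ B → 0 < d →
      ∃ K : ℝ, ∃ n0 : ℕ, ∀ n : ℕ, n0 ≤ n → ∀ u : ℝ, K * (n : ℝ) ^ (-(1 / 6) : ℝ) ≤ u →
        u ≤ (n : ℝ) ^ (-(11 / 100) : ℝ) → Bx n β B u → InL β κ ε S d (psiU n β κ τ u)

/-- **Cross rows** at the exponent `1 + κ`, shares in `[2 τ, S]`. -/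
def CrsBox (β : ℝ) : Prop :=
  ∃ C : ℝ, 1 ≤ C ∧ ∀ κ : ℝ, 0 < κ → κ ≤ 1 / 200 → ∃ S0 : ℝ, ∀ S : ℝ, S0 ≤ S →
    ∃ τ0 : ℝ, 0 < τ0 ∧ ∀ τ : ℝ, 0 < τ → τ ≤ τ0 → ∀ B d : ℝ, 0 ≤ B → 0 < d →
      ∃ K : ℝ, ∃ n0 : ℕ, ∀ n : ℕ, n0 ≤ n → ∀ u : ℝ, K * (n : ℝ) ^ (-(1 / 6) : ℝ) ≤ u →
        u ≤ (n : ℝ) ^ (-(11 / 100) : ℝ) → Bx n β B u →
          Crs β C κ S (2 * τ) d (psiU n β κ τ u)

/-- The start of the flow. -/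
noncomputable def X0 (n : ℕ) : ℝ := (n : ℝ) ^ (-(23 / 200) : ℝ)

/-- **STAR**: the box at the scale `u` from the growth above `u`. -/
def StarOut (β : ℝ) : Prop :=
  ∀ κ a : ℝ, 0 < κ → κ ≤ 1 / 200 → 0 < a → ∃ B K : ℝ, ∃ n0 : ℕ, 0 < B ∧
    ∀ n : ℕ, n0 ≤ n → ∀ u : ℝ, K * (n : ℝ) ^ (-(1 / 6) : ℝ) ≤ u → u ≤ X0 n →
      (∀ y ∈ Icc u (X0 n), ∃ v ∈ Icc (y / 2) y, a ≤ QU n β κ v) → Bx n β B u

end Vale.Agent.P146.H444
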