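import Vale.Agent.P146.H444.Final0
import Vale.Agent.P146.H97.CG2
import Vale.Agent.P146.H865.Master

/-!
# P146, lower half: the lower bound of the share from the five producers (helper444)
-/

open Set Filter Topology

namespace Vale.Agent.P146.H444

open Vale.Agent.P146.U Vale.Agent.P146.H865

theorem x0_lo : ∀ᶠ n : ℕ in atTop, (n : ℝ) ^ (-(23 / 200) : ℝ) ≤ X0 n :=
  Eventually.of_forall fun _ => le_rfl

theorem x0_hi : ∀ᶠ n : ℕ in atTop, X0 n ≤ (n : ℝ) ^ (-(1 / 10) : ℝ) := by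
  filter_upwards [eventually_ge_atTop 1] with n hn
  exact Real.rpow_le_rpow_of_exponent_le (by exact_mod_cast hn) (by norm_num)

/-- **The lower half from the five producers.** -/
theorem lo_all {β : ℝ} (hβ : 1 < β) (hU : RowUBox β) (hF : RowFBox β) (hL : RowLBox β)
    (hC : CrsBox β) (hS : InUBox β → StarOut β) :
    ∃ c K : ℝ, ∃ n0 : ℕ, 0 < c ∧ 0 < K ∧ ∀ n : ℕ, n0 ≤ n → ∀ x : ℝ,
      K * (n : ℝ) ^ (-(1 / 6) : ℝ) ≤ x → x ≤ (n : ℝ) ^ (-(1 / 10) : ℝ) →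
        c * (n * x ^ 4) ≤ AP.Wn n β x := by
  have hβ0 : 0 < β := by linarith
  have h2 := ex2_of (H240.kstar hβ0) (cgfU hβ)
  have hLs := lstar_of_lrho (H979.lrho hβ0)
  exact master hβ x0_lo x0_hi
    (rowsSK_all hβ0 h2 hLs (H97.cg hβ0 h2 hLs) hU hF hL hC hS)

end Vale.Agent.P146.H444
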