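import Vale.Agent.P146.H444.GlueL
import Vale.Agent.P146.H437.ApE

/-!
# P146, lower half: the rows at the hitting points from the five producers (helper444)
-/

open Set

namespace Vale.Agent.P146.H444

open Vale.Agent.P146.U Vale.Agent.P146.H865

/-- **The rows at every hitting point from the five producers.** -/
theorem rowsSK_all {β : ℝ} (hβ : 0 < β) (h2 : Ex2Out β) (hLs : LStar β) (hG : H97.CG β)
    (hU : RowUBox β) (hF : RowFBox β) (hL : RowLBox β) (hC : CrsBox β)
    (hS : InUBox β → StarOut β) : RowsSK β X0 :=
  have hE := H437.upE hβ h2 hLs hG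
  have hI := inUBox_of hβ hU hF hE
  rowsSK_of hβ hI (inLBox_of hβ hL hE) hC (hS hI)

end Vale.Agent.P146.H444
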