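import Vale.Agent.P146.H444.Spec

/-!
# P146, lower half: the quantifier glue (helper444)
-/

open Set

namespace Vale.Agent.P146.H444

open Vale.Agent.P157 Vale.Agent.P157.Lv Vale.Agent.P157.Lv.Sy
open Vale.Agent.P146.H425 Vale.Agent.P146.H325 Vale.Agent.P146.H93
open Vale.Agent.P146.H560 Vale.Agent.P146.H758 Vale.Agent.P146.U Vale.Agent.P146.H865

variable {n : ℕ} {β κ τ u s v w B : ℝ}

/-- the total variances of the law of three levels -/
lemma tv_bU (hu : 0 < u) (hτ : 0 ≤ τ) (hs : τ ≤ s) (hs1 : s * u ^ 2 ≤ 1) :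
    tv 3 (bU n β τ u s) = β ^ 2 / n := by
  have hu2 : 0 < u ^ 2 := by positivity
  have h1 : 0 ≤ 1 - s * u ^ 2 := by linarith
  have h2 : 0 ≤ (s - τ) * u ^ 2 := mul_nonneg (by linarith) hu2.le
  have h3 : 0 ≤ τ * u ^ 2 := mul_nonneg hτ hu2.le
  have hn : (√(n : ℝ)) ^ 2 = n := Real.sq_sqrt (Nat.cast_nonneg n)
  unfold tv
  rw [Finset.sum_range_succ, Finset.sum_range_succ, Finset.sum_range_succ, Finset.sum_range_zero]
  show 0 + (β / √n * √(1 - s * u ^ 2)) ^ 2 + (β / √n * √((s - τ) * u ^ 2)) ^ 2 +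
    (β / √n * √(τ * u ^ 2)) ^ 2 = β ^ 2 / n
  rw [mul_pow, mul_pow, mul_pow, Real.sq_sqrt h1, Real.sq_sqrt h2, Real.sq_sqrt h3, div_pow, hn]
  ring

lemma tv_wU (hu : 0 < u) (hw : 0 ≤ w) : tv 3 (wU u w) = w * u ^ 3 := by
  unfold tv
  rw [Finset.sum_range_succ, Finset.sum_range_succ, Finset.sum_range_succ, Finset.sum_range_zero]
  show 0 + (0 : ℝ) ^ 2 + (√(w * u ^ 3)) ^ 2 + (0 : ℝ) ^ 2 = w * u ^ 3
  rw [Real.sq_sqrt (by positivity)]
  ring

/-- **The local lower bound from the box.** -/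
theorem psiU_ge (hβ : 0 < β) (hn : 0 < n) (hu : 0 < u) (hκ : 0 ≤ κ) (hκ1 : κ ≤ 1 / 200)
    (hu1 : 2 * u ≤ 1) (hτ : 0 ≤ τ) (hs : τ ≤ s) (hs1 : s * u ^ 2 ≤ 1) (hv : 51 / 100 ≤ v)
    (hv1 : v ≤ 1 + κ) (hw : 0 ≤ w) (hw1 : w ≤ 8) (hB : Bx n β B u) :
    -B ≤ psiU n β κ τ u s v w := by
  have hz : (1 + κ) * u ≤ 1 := by nlinarith
  have hy0 : 0 < 51 / 100 * u := by positivity
  have he := em_mU hu hv hv1 hz
  have hE : Ex2 3 (mU κ u v) (51 / 100 * u) ((1 + κ) * u) :=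
    { em := he, K1 := by norm_num, y0 := hy0, Y1 := hz, ge := le_rfl, le := le_rfl }
  have h1 := (sandwich (w := wU u w) hE hβ.le (tv_bU (n := n) (β := β) hu hτ hs hs1)).1
  rw [tv_wU hu hw] at h1
  have hu3 : 0 < u ^ 3 := by positivity
  have h2 := (abs_le.1 (hB (51 / 100 * u) (w * u ^ 3) (by linarith) (by linarith)
    (by positivity) (mul_le_mul_of_nonneg_right hw1 hu3.le))).1
  have hnR : (0 : ℝ) < n := Nat.cast_pos.2 hn
  have hu5 : 0 < (n : ℝ) * u ^ 5 := by positivity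
  have e : (n : ℝ) / (2 * β) * (w * u ^ 3) = n * (w * u ^ 3) / (2 * β) := by ring
  rw [e] at h2
  unfold psiU
  rw [le_div_iff₀ hu5]
  linarith

/-- **The glue.** -/
theorem rowsSK_of (hβ : 0 < β) (hU : InUBox β) (hL : InLBox β) (hC : CrsBox β)
    (hS : StarOut β) : RowsSK β X0 := by
  obtain ⟨C1, hC1, hU⟩ := hU
  obtain ⟨C2, hC2, hC⟩ := hC
  refine ⟨max C1 C2, hC1.trans (le_max_left _ _), fun κ hκ hκ1 A hA hA1 ε hε => ?_⟩
  obtain ⟨S1, hU⟩ := hU κ hκ hκ1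
  obtain ⟨S2, hC⟩ := hC κ hκ hκ1
  obtain ⟨S3, hL⟩ := hL κ hκ hκ1 ε hε
  obtain ⟨B, K1, n1, hB, hS⟩ := hS κ (A ^ 3 / 12) hκ hκ1 (by positivity)
  refine ⟨max 1 (max S1 (max S2 S3)), fun S hSS => ?_⟩
  have hSS1 : 1 ≤ S := (le_max_left _ _).trans hSS
  have hSS' := (le_max_right _ _).trans hSS
  have hSS2 : S1 ≤ S := (le_max_left _ _).trans hSS'
  have hSS'' := (le_max_right _ _).trans hSS'
  have hSS3 : S2 ≤ S := (le_max_left _ _).trans hSS''
  have hSS4 : S3 ≤ S := (le_max_right _ _).trans hSS''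
  obtain ⟨t1, ht1, hU⟩ := hU S hSS2
  obtain ⟨t2, ht2, hC⟩ := hC S hSS3
  obtain ⟨t3, ht3, hL⟩ := hL S hSS4
  refine ⟨min 1 (min t1 (min t2 t3)), by positivity, fun τ hτ hττ => ?_⟩
  have hτ1 : τ ≤ 1 := hττ.trans (min_le_left _ _)
  have hτ' := hττ.trans (min_le_right _ _)
  have hτ2 : τ ≤ t1 := hτ'.trans (min_le_left _ _)
  have hτ'' := hτ'.trans (min_le_right _ _)
  have hτ3 : τ ≤ t2 := hτ''.trans (min_le_left _ _)
  have hτ4 : τ ≤ t3 := hτ''.trans (min_le_right _ _)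
  refine ⟨C1 * (B + 1), by positivity, fun d hd => ?_⟩
  obtain ⟨γ, hγ, n2, hU⟩ := hU τ hτ hτ2 B d hB.le hd
  obtain ⟨K2, n3, hC⟩ := hC τ hτ hτ3 B d hB.le hd
  obtain ⟨K3, n4, hL⟩ := hL τ hτ hτ4 B d hB.le hd
  -- the condition on the scale
  set K4 : ℝ := (B + 1) ^ 8 / γ + 1 with hK4
  have hK4' : 1 ≤ K4 := by
    have : 0 ≤ (B + 1) ^ 8 / γ := by positivity
    linarith
  have hX : ∀ᶠ n : ℕ in Filter.atTop, S * ((n : ℝ) ^ (-(23 / 200) : ℝ)) ^ 2 ≤ 1 ∧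
      2 * (n : ℝ) ^ (-(23 / 200) : ℝ) ≤ 1 := by
    have h0 : Filter.Tendsto (fun n : ℕ => (n : ℝ) ^ (-(23 / 200) : ℝ)) Filter.atTop (nhds 0) :=
      (tendsto_rpow_neg_atTop (by norm_num)).comp tendsto_natCast_atTop_atTop
    have h1 : Filter.Tendsto (fun n : ℕ => S * ((n : ℝ) ^ (-(23 / 200) : ℝ)) ^ 2) Filter.atTop
        (nhds 0) := by
      have := (h0.pow 2).const_mul S
      simpa using this
    have h2 : Filter.Tendsto (fun n : ℕ => 2 * (n : ℝ) ^ (-(23 / 200) : ℝ)) Filter.atTop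
        (nhds 0) := by
      have := h0.const_mul 2
      simpa using this
    have h3 := h1.eventually (eventually_le_nhds (show (0 : ℝ) < 1 by norm_num))
    have h4 := h2.eventually (eventually_le_nhds (show (0 : ℝ) < 1 by norm_num))
    filter_upwards [h3, h4] with n a b using ⟨a, b⟩
  obtain ⟨n5, hX⟩ := Filter.eventually_atTop.1 hX
  refine ⟨max K1 (max K2 (max K3 K4)), max 1 (max n1 (max n2 (max n3 (max n4 n5)))),
    fun n hn u hu hu0 hH => ?_⟩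
  have hn1 : 1 ≤ n := (le_max_left _ _).trans hn
  have hn' := (le_max_right _ _).trans hn
  have hn2 : n1 ≤ n := (le_max_left _ _).trans hn'
  have hn'' := (le_max_right _ _).trans hn'
  have hn3 : n2 ≤ n := (le_max_left _ _).trans hn''
  have hn3' := (le_max_right _ _).trans hn''
  have hn4 : n3 ≤ n := (le_max_left _ _).trans hn3'
  have hn4' := (le_max_right _ _).trans hn3'
  have hn5 : n4 ≤ n := (le_max_left _ _).trans hn4'
  have hn6 : n5 ≤ n := (le_max_right _ _).trans hn4'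
  have hnR : (1 : ℝ) ≤ n := by exact_mod_cast hn1
  have hn0 : (0 : ℝ) < n := by linarith
  have hp : 0 < (n : ℝ) ^ (-(1 / 6) : ℝ) := Real.rpow_pos_of_pos hn0 _
  have hu1 : K1 * (n : ℝ) ^ (-(1 / 6) : ℝ) ≤ u :=
    (mul_le_mul_of_nonneg_right (le_max_left _ _) hp.le).trans hu
  have hu2 : K2 * (n : ℝ) ^ (-(1 / 6) : ℝ) ≤ u :=
    (mul_le_mul_of_nonneg_right ((le_max_left _ _).trans (le_max_right _ _)) hp.le).trans hu
  have hu3 : K3 * (n : ℝ) ^ (-(1 / 6) : ℝ) ≤ u :=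
    (mul_le_mul_of_nonneg_right (((le_max_left _ _).trans (le_max_right _ _)).trans
      (le_max_right _ _)) hp.le).trans hu
  have hu4 : K4 * (n : ℝ) ^ (-(1 / 6) : ℝ) ≤ u :=
    (mul_le_mul_of_nonneg_right (((le_max_right _ _).trans (le_max_right _ _)).trans
      (le_max_right _ _)) hp.le).trans hu
  have hupos : 0 < u := by
    refine lt_of_lt_of_le ?_ hu4
    positivity
  have hu11 : u ≤ (n : ℝ) ^ (-(11 / 100) : ℝ) := by
    refine hu0.trans ?_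
    unfold X0
    exact Real.rpow_le_rpow_of_exponent_le hnR (by norm_num)
  obtain ⟨hX1, hX2⟩ := hX n hn6
  have hsu : S * u ^ 2 ≤ 1 := by
    refine le_trans ?_ hX1
    refine mul_le_mul_of_nonneg_left ?_ (by linarith)
    exact pow_le_pow_left₀ hupos.le hu0 2
  have h2u : 2 * u ≤ 1 := by
    have := mul_le_mul_of_nonneg_left hu0 (show (0 : ℝ) ≤ 2 by norm_num)
    exact this.trans hX2
  have hbx : Bx n β B u := hS n hn2 u hu1 hu0 hH.gr
  have hΛ : (B + 1) ^ 8 ≤ γ * (n * u ^ 6) := by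
    have h1 : K4 ^ 6 ≤ n * u ^ 6 := by
      have h2 : (K4 * (n : ℝ) ^ (-(1 / 6) : ℝ)) ^ 6 ≤ u ^ 6 :=
        pow_le_pow_left₀ (by positivity) hu4 6
      have h3 : ((n : ℝ) ^ (-(1 / 6) : ℝ)) ^ 6 = (n : ℝ)⁻¹ := by
        rw [← Real.rpow_natCast, ← Real.rpow_mul hn0.le]
        norm_num
        exact Real.rpow_neg_one _
      rw [mul_pow, h3] at h2
      have h4 := mul_le_mul_of_nonneg_left h2 hn0.le
      have h5 : (n : ℝ) * (K4 ^ 6 * (n : ℝ)⁻¹) = K4 ^ 6 := by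
        field_simp
      rw [h5] at h4
      exact h4
    have h6 : K4 ≤ K4 ^ 6 := le_self_pow₀ hK4' (by norm_num)
    have h7 : (B + 1) ^ 8 = γ * ((B + 1) ^ 8 / γ) := by field_simp
    rw [h7]
    refine mul_le_mul_of_nonneg_left ?_ hγ.le
    linarith
  refine ⟨hL n hn5 u hu3 hu11 hbx, ?_, ?_⟩
  · have h := hU n hn3 u B hupos hu11 hB.le hΛ hbx (Icc 0 1) le_rfl fun w hw =>
      psiU_ge hβ hn1 hupos hκ.le hκ1 h2u hτ.le (by linarith) hsu (by linarith) le_rfl hw.1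
        (by linarith [hw.2]) hbx
    exact InU.mono h (le_max_left _ _)
  · exact (hC n hn4 u hu2 hu11 hbx).mono hκ.le hκ1 (le_max_right _ _)

end Vale.Agent.P146.H444
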