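import Vale.Agent.P146.H444.Glue
import Vale.Agent.P146.H444.GlueU
import Vale.Agent.P146.H437.GridL

/-!
# P146, lower half: the quantifiers of the lower inner row (helper444)
-/

open Set

namespace Vale.Agent.P146.H444

open Vale.Agent.P157 Vale.Agent.P157.Lv Vale.Agent.P157.Lv.Sy
open Vale.Agent.P146.H425 Vale.Agent.P146.H325 Vale.Agent.P146.H93
open Vale.Agent.P146.H560 Vale.Agent.P146.H758 Vale.Agent.P146.U Vale.Agent.P146.H865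
open Vale.Agent.P146.H437

/-- The lower rows at the shares `T ≥ τ + (S - τ) / N`, field `0`, under the box. -/
def RowLBox (β : ℝ) : Prop :=
  ∀ κ : ℝ, 0 < κ → κ ≤ 1 / 200 → ∀ η e1 : ℝ, 0 < η → 0 < e1 → ∃ S0 : ℝ, ∀ S : ℝ, S0 ≤ S →
    ∃ τ0 : ℝ, 0 < τ0 ∧ ∀ τ : ℝ, 0 < τ → τ ≤ τ0 → ∀ d2 : ℝ, 0 < d2 →
      ∃ r0 : ℝ, 0 < r0 ∧ ∀ r : ℝ, 0 < r → r ≤ r0 → r ≤ κ → ∀ N : ℕ, 1 ≤ N →
        ∀ B d1 : ℝ, 0 ≤ B → 0 < d1 →
          ∃ K : ℝ, ∃ n0 : ℕ, ∀ n : ℕ, n0 ≤ n → ∀ u : ℝ, K * (n : ℝ) ^ (-(1 / 6) : ℝ) ≤ u →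
            u ≤ (n : ℝ) ^ (-(11 / 100) : ℝ) → Bx n β B u →
              RowL2 n β κ u S τ r N η e1 d1 d2 (Icc 0 1)

variable {n N : ℕ} {β κ u S τ s v w : ℝ}

/-- the energy at the field `0` is nonnegative -/
theorem psiU_zero_ge (hβ : 0 < β) (hn : 0 < n) (hu : 0 < u) (hκ : 0 ≤ κ) (hκ1 : κ ≤ 1 / 200)
    (hu1 : 2 * u ≤ 1) (hτ : 0 ≤ τ) (hs : τ ≤ s) (hs1 : s * u ^ 2 ≤ 1) (hv : 51 / 100 ≤ v)
    (hv1 : v ≤ 1 + κ) : 0 ≤ psiU n β κ τ u s v 0 := by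
  have hz : (1 + κ) * u ≤ 1 := by nlinarith
  have hy0 : 0 < 51 / 100 * u := by positivity
  have he := em_mU hu hv hv1 hz
  have hE : Ex2 3 (mU κ u v) (51 / 100 * u) ((1 + κ) * u) :=
    { em := he, K1 := by norm_num, y0 := hy0, Y1 := hz, ge := le_rfl, le := le_rfl }
  have h1 := (sandwich (w := wU u 0) hE hβ.le (tv_bU (n := n) (β := β) hu hτ hs hs1)).1
  rw [tv_wU hu le_rfl, zero_mul, Pu_zero hy0 (by linarith)] at h1
  have hu5 : 0 < (n : ℝ) * u ^ 5 := by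
    have : (0 : ℝ) < n := Nat.cast_pos.2 hn
    positivity
  unfold psiU
  rw [le_div_iff₀ hu5]
  have e : P1 n β (51 / 100 * u) = W (51 / 100 * u) 1 (Fsk n β) 0 := rfl
  have e2 : (n : ℝ) * (0 * u ^ 3) / (2 * β) = 0 := by ring
  rw [e, e2]
  linarith

/-- the constants at one scale -/
theorem inL_pt {C' E0 η e1 d2 d1 r t d ε : ℝ} (hβ : 0 < β) (hn : 0 < n) (hu : 0 < u) (hκ : 0 < κ)
    (hκ1 : κ ≤ 1 / 200) (h3u : 3 * u ≤ 1) (hSu : S * u ^ 2 ≤ 1) (hτ : 0 < τ) (hτS : τ < S)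
    (hE0 : 0 ≤ E0) (hC' : C' = 24 * (E0 + 2) + 2) (hCS : C' ≤ S) (hη0 : 0 < η) (hη1 : η ≤ 1 / 2)
    (hηε : η * C' ^ 3 / 12 ≤ ε / 3) (he10 : 0 < e1) (he1a : C' / 4 * e1 ≤ 1 / 2)
    (he1b : C' / 4 * e1 ≤ ε / 3) (ht1 : t ≤ 1) (htε : t * C' ^ 2 / 4 ≤ ε / 3)
    (htt : τ + (S - τ) / N ≤ t) (hd2 : 0 < d2) (hr : 0 < r) (hrκ : r ≤ κ) (hN : 0 < N)
    (hrE : E0 * r ≤ d / 2) (hd1 : d1 ≤ d / 2) (he : S * d2 + N * d1 / r ≤ 1 / 2)
    (hed : S * d2 + N * d1 / r ≤ d) (hd : 0 ≤ d)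
    (hE1 : psiU n β (1 + κ) τ u S (1 + (1 + κ)) 0 ≤ E0)
    (hRL : RowL2 n β κ u S τ r N η e1 d1 d2 (Icc 0 1)) : InL β κ ε S d (psiU n β κ τ u) := by
  have hC'0 : 2 ≤ C' := by rw [hC']; linarith
  have hC'p : 0 < C' := by linarith
  have h0 : 0 ≤ psiU n β κ τ u S (1 + κ) 0 :=
    psiU_zero_ge hβ hn hu hκ.le hκ1 (by linarith) hτ.le hτS.le hSu (by linarith) le_rfl
  have hcap : E0 + (C' / 4 * e1 + S * d2 + N * d1 / r) <
      (1 - η) * (max (C' - (τ + (S - τ) / N)) 0) ^ 3 / 12 := by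
    have h2 : 24 * (E0 + 2) + 1 ≤ max (C' - (τ + (S - τ) / N)) 0 := by
      refine le_trans ?_ (le_max_left _ _)
      rw [hC']
      linarith
    have h3 : (24 * (E0 + 2) + 1) ^ 3 ≤ (max (C' - (τ + (S - τ) / N)) 0) ^ 3 :=
      pow_le_pow_left₀ (by linarith) h2 3
    have h4 : 24 * (E0 + 2) + 1 ≤ (24 * (E0 + 2) + 1) ^ 3 :=
      le_self_pow₀ (by linarith) (by norm_num)
    have h5 : 1 / 2 * (24 * (E0 + 2)) ≤ (1 - η) * (max (C' - (τ + (S - τ) / N)) 0) ^ 3 :=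
      mul_le_mul (by linarith) (by linarith) (by linarith) (by linarith)
    linarith
  obtain ⟨α, K', h1, h2, h3, h4, h5⟩ := inL_grid2 (E := E0) (C' := C') hn hβ hu hκ
    (by nlinarith) hτ hτS hCS (by linarith) he10.le hd2.le hη0.le (by linarith) hr hrκ hN
    (le_refl (Icc (0 : ℝ) 1)) (by linarith) hcap hRL
  refine ⟨α, K', fun w' hw' => ?_, ?_, ?_⟩
  · have := h3 w' hw'
    linarith
  · linarith
  · rw [max_eq_left hC'p.le] at h5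
    have h7 : (τ + (S - τ) / N) * C' ^ 2 ≤ t * C' ^ 2 :=
      mul_le_mul_of_nonneg_right htt (sq_nonneg _)
    linarith

/-- the constants `C'`, `η`, `e1`, `t` from `ε` -/
lemma constL1 {E0 ε : ℝ} (hE0 : 0 ≤ E0) (hε : 0 < ε) : ∃ C' η e1 t : ℝ,
    C' = 24 * (E0 + 2) + 2 ∧ 0 < η ∧ η ≤ 1 / 2 ∧ η * C' ^ 3 / 12 ≤ ε / 3 ∧ 0 < e1 ∧
      C' / 4 * e1 ≤ 1 / 2 ∧ C' / 4 * e1 ≤ ε / 3 ∧ 0 < t ∧ t ≤ 1 ∧ t * C' ^ 2 / 4 ≤ ε / 3 := by
  obtain ⟨C', hC'⟩ : ∃ C', C' = 24 * (E0 + 2) + 2 := ⟨_, rfl⟩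
  have hC'p : 0 < C' := by rw [hC']; linarith
  refine ⟨C', min (1 / 2) (4 * ε / C' ^ 3), min (2 / C') (4 * ε / (3 * C')),
    min 1 (4 * ε / (3 * C' ^ 2)), hC', by positivity, min_le_left _ _, ?_, by positivity, ?_, ?_,
    by positivity, min_le_left _ _, ?_⟩
  · have := min_le_right (1 / 2) (4 * ε / C' ^ 3)
    rw [le_div_iff₀ (by positivity)] at this
    linarith
  · have := min_le_left (2 / C') (4 * ε / (3 * C'))
    rw [le_div_iff₀ hC'p] at this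
    linarith
  · have := min_le_right (2 / C') (4 * ε / (3 * C'))
    rw [le_div_iff₀ (by positivity)] at this
    linarith
  · have := min_le_right 1 (4 * ε / (3 * C' ^ 2))
    rw [le_div_iff₀ (by positivity)] at this
    linarith

/-- the constants `r`, `N`, `d1` -/
lemma constL2 {E0 S τ t d κ r0 : ℝ} (hE0 : 0 ≤ E0) (hS : 0 < S) (hτ : 0 < τ) (ht : 0 < t)
    (hd : 0 < d) (hκ : 0 < κ) (hr0 : 0 < r0) : ∃ (r d1 : ℝ) (N : ℕ), 0 < r ∧ r ≤ r0 ∧ r ≤ κ ∧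
    E0 * r ≤ d / 2 ∧ 0 < N ∧ (S - τ) / N ≤ t / 2 ∧ 0 < d1 ∧ d1 ≤ d / 2 ∧
      N * d1 / r ≤ min 1 d / 4 := by
  obtain ⟨r, hr⟩ : ∃ r, r = min r0 (min κ (d / (2 * (E0 + 1)))) := ⟨_, rfl⟩
  have hrpos : 0 < r := by rw [hr]; positivity
  obtain ⟨N, hN⟩ := exists_nat_ge (2 * S / t)
  have hN0 : (0 : ℝ) < N := lt_of_lt_of_le (by positivity) hN
  have he0 : 0 < min 1 d := by positivity
  refine ⟨r, min (d / 2) (min 1 d * r / (4 * N)), N, hrpos, by rw [hr]; exact min_le_left _ _,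
    by rw [hr]; exact (min_le_right _ _).trans (min_le_left _ _), ?_, Nat.cast_pos.1 hN0, ?_,
    by positivity, min_le_left _ _, ?_⟩
  · have : r ≤ d / (2 * (E0 + 1)) := by rw [hr]; exact (min_le_right _ _).trans (min_le_right _ _)
    rw [le_div_iff₀ (by positivity)] at this
    nlinarith
  · rw [div_le_iff₀ ht] at hN
    rw [div_le_iff₀ hN0]
    linarith
  · have := min_le_right (d / 2) (min 1 d * r / (4 * N))
    rw [le_div_iff₀ (by positivity)] at this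
    rw [div_le_iff₀ hrpos]
    linarith

/-- **The lower inner row.** -/
theorem inLBox_of (hβ : 0 < β) (hL : RowLBox β) (hE : UpE β) : InLBox β := by
  obtain ⟨E0, hE0, hE⟩ := hE
  intro κ hκ hκ1 ε hε
  obtain ⟨C', η, e1, t, hC', hη0, hη1, hηε, he10, he1a, he1b, ht0, ht1', htε⟩ := constL1 hE0 hε
  obtain ⟨S1, hL⟩ := hL κ hκ hκ1 η e1 hη0 he10
  refine ⟨max C' S1, fun S hSS => ?_⟩
  have hCS : C' ≤ S := (le_max_left _ _).trans hSS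
  have hS0 : 2 ≤ S := by rw [hC'] at hCS; linarith
  obtain ⟨t1, ht1, hL⟩ := hL S ((le_max_right _ _).trans hSS)
  refine ⟨min t1 (t / 2), by positivity, fun τ hτ hττ B d hB hd => ?_⟩
  have hτ1 : τ ≤ t1 := hττ.trans (min_le_left _ _)
  have hτt : τ ≤ t / 2 := hττ.trans (min_le_right _ _)
  have hτS : τ < S := by linarith
  have he0 : 0 < min 1 d := by positivity
  obtain ⟨d2, hd2⟩ : ∃ d2, d2 = min 1 d / (4 * S) := ⟨_, rfl⟩
  have hd20 : 0 < d2 := by rw [hd2]; positivity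
  have hd2b : S * d2 = min 1 d / 4 := by
    rw [hd2]
    field_simp
  obtain ⟨r0, hr0, hL⟩ := hL τ hτ hτ1 d2 hd20
  obtain ⟨r, d1, N, hr, hra, hrκ, hrE, hN, hNS, hd10, hd1a, hd1b⟩ :=
    constL2 (E0 := E0) (S := S) (τ := τ) (t := t) (d := d) (κ := κ) (r0 := r0) hE0 (by linarith)
      hτ ht0 hd hκ hr0
  obtain ⟨K, n1, hL⟩ := hL r hr hra hrκ N hN B d1 hB hd10
  obtain ⟨n2, hE⟩ := hE S
  obtain ⟨n3, hn31, hn3⟩ := small_u (max 3 S)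
  refine ⟨max 1 K, max n1 (max n2 n3), fun n hn u hu hu1 hbx => ?_⟩
  have hn' := (le_max_left _ _).trans hn
  have hn'' := (le_max_right _ _).trans hn
  have hnpos : 0 < n := lt_of_lt_of_le (by omega) ((le_max_right _ _).trans hn'')
  have hnR : (0 : ℝ) < n := Nat.cast_pos.2 hnpos
  have hp : 0 < (n : ℝ) ^ (-(1 / 6) : ℝ) := Real.rpow_pos_of_pos hnR _
  have hue : (n : ℝ) ^ (-(1 / 6) : ℝ) ≤ u := by
    have := (mul_le_mul_of_nonneg_right (le_max_left 1 K) hp.le).trans hu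
    linarith
  have huK : K * (n : ℝ) ^ (-(1 / 6) : ℝ) ≤ u :=
    (mul_le_mul_of_nonneg_right (le_max_right 1 K) hp.le).trans hu
  have hu0 : 0 < u := hp.trans_le hue
  obtain ⟨h3u', hSu'⟩ := hn3 n ((le_max_right _ _).trans hn'') u hu1 hu0
  have h3u : 3 * u ≤ 1 := (mul_le_mul_of_nonneg_right (le_max_left 3 S) hu0.le).trans h3u'
  have hSu : S * u ^ 2 ≤ 1 :=
    (mul_le_mul_of_nonneg_right (le_max_right 3 S) (sq_nonneg u)).trans hSu'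
  have hE1 := hE n ((le_max_left _ _).trans hn'') κ τ u 0 hκ hκ1 hτ hτS.le hue hu1
    ⟨le_rfl, zero_le_one⟩
  have hm1 : min 1 d ≤ 1 := min_le_left _ _
  have hm2 : min 1 d ≤ d := min_le_right _ _
  exact inL_pt hβ hnpos hu0 hκ hκ1 h3u hSu hτ hτS hE0 hC' hCS hη0 hη1 hηε he10 he1a he1b ht1' htε
    (by linarith) hd20 hr hrκ hN hrE hd1a (by linarith) (by linarith) hd.le hE1
    (hL n hn' u huK hu1 hbx)

end Vale.Agent.P146.H444
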